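import Mathlib

/-!
# Relative entropy with respect to an arbitrary global Maxwellian of temperature at most one

The entropy inequality of a renormalized entropy solution is stated relative to the standard
Maxwellian only. Together with conservation of mass and momentum and the energy inequality it
controls the relative entropy to every Maxwellian of temperature at most one.
-/

open MeasureTheory Real
open scoped RealInnerProductSpace

namespace Vale.Agent.P140

/-- The periodic box `ℝ³/ℤ³`. -/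
abbrev T3 := Fin 3 → UnitAddCircle

/-- Velocity space. -/
abbrev V3 := EuclideanSpace ℝ (Fin 3)

/-- Phase space. -/
abbrev Omega := T3 × V3

/-- The Maxwellian of density `ρ`, drift `u` and temperature `θ`. -/
noncomputable def maxwellian (ρ : ℝ) (u : V3) (θ : ℝ) (v : V3) : ℝ :=
  ρ * (2 * π * θ) ^ (-(3 / 2 : ℝ)) * exp (-‖v - u‖ ^ 2 / (2 * θ))

/-- The entropy of `F` relative to the velocity profile `G`. -/
noncomputable def relEnt (G : V3 → ℝ) (F : Omega → ℝ) : ℝ :=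
  ∫ z : Omega, (F z * log (F z / G z.2) - F z + G z.2)

/-- Nonnegative, integrable, with finite energy and finite `∫ F |log F|`. -/
def FiniteData (F : Omega → ℝ) : Prop :=
  (∀ z, 0 ≤ F z) ∧ Integrable F ∧
    Integrable (fun z : Omega => F z * (1 + ‖z.2‖ ^ 2 + |log (F z)|))

lemma kl_nonneg {f g : ℝ} (hf : 0 ≤ f) (hg : 0 < g) : 0 ≤ f * log (f / g) - f + g := by
  rcases hf.eq_or_lt with rfl | hf
  · simpa using hg.le
  have h := log_le_sub_one_of_pos (div_pos hg hf)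
  rw [log_div hg.ne' hf.ne'] at h
  rw [log_div hf.ne' hg.ne']
  have := mul_le_mul_of_nonneg_left h hf.le
  rw [mul_sub f (g / f), mul_div_cancel₀ _ hf.ne'] at this
  nlinarith

lemma kl_eq_zero {f g : ℝ} (hf : 0 ≤ f) (hg : 0 < g) (h : f * log (f / g) - f + g = 0) :
    f = g := by
  rcases hf.eq_or_lt with rfl | hf
  · simpa using h.symm
  by_contra hne
  have hq : g / f ≠ 1 := fun e => hne ((div_eq_one_iff_eq hf.ne').1 e).symm
  have h' := log_lt_sub_one_of_pos (div_pos hg hf) hq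
  rw [log_div hg.ne' hf.ne'] at h'
  rw [log_div hf.ne' hg.ne'] at h
  have := mul_lt_mul_of_pos_left h' hf
  rw [mul_sub f (g / f), mul_div_cancel₀ _ hf.ne'] at this
  nlinarith

variable {ρ θ : ℝ} {u : V3}

lemma maxwellian_pos (hρ : 0 < ρ) (hθ : 0 < θ) (v : V3) : 0 < maxwellian ρ u θ v := by
  unfold maxwellian; positivity

lemma continuous_maxwellian : Continuous (maxwellian ρ u θ) := by
  unfold maxwellian; fun_prop

lemma log_maxwellian (hρ : 0 < ρ) (hθ : 0 < θ) (v : V3) :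
    log (maxwellian ρ u θ v) =
      log (ρ * (2 * π * θ) ^ (-(3 / 2 : ℝ))) - ‖v - u‖ ^ 2 / (2 * θ) := by
  unfold maxwellian
  rw [log_mul (by positivity) (exp_ne_zero _), log_exp]; ring

lemma integrable_exp_sq (a : ℝ) (ha : 0 < a) (u : V3) :
    Integrable (fun v : V3 => exp (-a * ‖v - u‖ ^ 2)) := by
  have h := GaussianFourier.integrable_cexp_neg_mul_sq_norm_add (V := V3) (b := (a : ℂ))
    (by simpa using ha) 0 0
  have h' : Integrable (fun v : V3 => exp (-a * ‖v‖ ^ 2)) := by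
    refine h.norm.congr (Filter.Eventually.of_forall fun v => ?_)
    simp [Complex.norm_exp, ← Complex.ofReal_pow]
  exact h'.comp_sub_right u

lemma integrable_maxwellian (hθ : 0 < θ) : Integrable (maxwellian ρ u θ) := by
  have h := (integrable_exp_sq (1 / (2 * θ)) (by positivity) u).const_mul
    (ρ * (2 * π * θ) ^ (-(3 / 2 : ℝ)))
  refine h.congr (Filter.Eventually.of_forall fun v => ?_)
  simp only [maxwellian]; ring_nf

lemma integrable_sq_mul_maxwellian (hθ : 0 < θ) :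
    Integrable (fun v : V3 => ‖v‖ ^ 2 * maxwellian ρ u θ v) := by
  set C := |ρ * (2 * π * θ) ^ (-(3 / 2 : ℝ))| * (8 * θ + 2 * ‖u‖ ^ 2)
  refine ((integrable_exp_sq (1 / (4 * θ)) (by positivity) u).const_mul C).mono'
    ((Continuous.mul (by fun_prop) continuous_maxwellian).aestronglyMeasurable)
    (Filter.Eventually.of_forall fun v => ?_)
  have hsum : ‖v‖ ^ 2 ≤ 2 * ‖v - u‖ ^ 2 + 2 * ‖u‖ ^ 2 := by
    have h1 : ‖v‖ ≤ ‖v - u‖ + ‖u‖ := norm_le_norm_sub_add v u
    nlinarith [norm_nonneg v, sq_nonneg (‖v - u‖ - ‖u‖)]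
  set s := ‖v - u‖ ^ 2 / (4 * θ) with hs
  have hs0 : 0 ≤ s := by positivity
  have hw : ‖v - u‖ ^ 2 = 4 * θ * s := by rw [hs]; field_simp
  have he : exp (-‖v - u‖ ^ 2 / (2 * θ)) = exp (-s) * exp (-s) := by
    rw [← exp_add]; congr 1; rw [hs]; field_simp; ring
  have he' : exp (-(1 / (4 * θ)) * ‖v - u‖ ^ 2) = exp (-s) := by
    congr 1; rw [hs]; ring
  have hse : s * exp (-s) ≤ 1 := by
    rw [exp_neg, ← div_eq_mul_inv, div_le_one (exp_pos s)]
    linarith [add_one_le_exp s]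
  have h1e : exp (-s) ≤ 1 := exp_le_one_iff.2 (by linarith)
  have key : ‖v‖ ^ 2 * exp (-s) ≤ 8 * θ + 2 * ‖u‖ ^ 2 := by
    calc ‖v‖ ^ 2 * exp (-s) ≤ (2 * ‖v - u‖ ^ 2 + 2 * ‖u‖ ^ 2) * exp (-s) := by gcongr
      _ = 8 * θ * (s * exp (-s)) + 2 * ‖u‖ ^ 2 * exp (-s) := by rw [hw]; ring
      _ ≤ 8 * θ * 1 + 2 * ‖u‖ ^ 2 * 1 := by gcongr
      _ = _ := by ring
  rw [norm_mul, norm_pow, norm_norm, maxwellian, norm_mul, Real.norm_eq_abs, Real.norm_eq_abs,
    abs_of_pos (exp_pos _), he, he']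
  calc ‖v‖ ^ 2 * (|ρ * (2 * π * θ) ^ (-(3 / 2 : ℝ))| * (exp (-s) * exp (-s)))
      = |ρ * (2 * π * θ) ^ (-(3 / 2 : ℝ))| * (‖v‖ ^ 2 * exp (-s)) * exp (-s) := by ring
    _ ≤ C * exp (-s) := by
      simp only [C]
      gcongr

lemma integrable_snd {g : V3 → ℝ} (hg : Integrable g) :
    Integrable (fun z : Omega => g z.2) :=
  hg.comp_snd (volume : Measure T3)

lemma integrable_mul_norm_sq {F : Omega → ℝ} (hF : FiniteData F) :
    Integrable (fun z : Omega => F z * ‖z.2‖ ^ 2) := by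
  refine hF.2.2.mono' (hF.2.1.aestronglyMeasurable.mul (by fun_prop))
    (Filter.Eventually.of_forall fun z => ?_)
  rw [norm_mul, norm_pow, norm_norm, Real.norm_eq_abs, abs_of_nonneg (hF.1 z)]
  exact mul_le_mul_of_nonneg_left (by nlinarith [abs_nonneg (log (F z))]) (hF.1 z)

lemma integrable_mul_log {F : Omega → ℝ} (hF : FiniteData F) :
    Integrable (fun z : Omega => F z * log (F z)) := by
  refine hF.2.2.mono' (hF.2.1.aestronglyMeasurable.mul
    (hF.2.1.aestronglyMeasurable.aemeasurable.log.aestronglyMeasurable))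
    (Filter.Eventually.of_forall fun z => ?_)
  rw [norm_mul, Real.norm_eq_abs, Real.norm_eq_abs, abs_of_nonneg (hF.1 z)]
  exact mul_le_mul_of_nonneg_left (by nlinarith [sq_nonneg ‖z.2‖]) (hF.1 z)

lemma integrable_smul_snd {F : Omega → ℝ} (hF : FiniteData F) :
    Integrable (fun z : Omega => F z • z.2) := by
  refine hF.2.2.mono' (hF.2.1.aestronglyMeasurable.smul (by fun_prop))
    (Filter.Eventually.of_forall fun z => ?_)
  rw [norm_smul, Real.norm_eq_abs, abs_of_nonneg (hF.1 z)]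
  exact mul_le_mul_of_nonneg_left
    (by nlinarith [abs_nonneg (log (F z)), sq_nonneg (‖z.2‖ - 1)]) (hF.1 z)

lemma integrable_mul_quadratic {F : Omega → ℝ} (hF : FiniteData F) (a c : ℝ) (b : V3) :
    Integrable (fun z : Omega => F z * (a + ⟪b, z.2⟫ + c * ‖z.2‖ ^ 2)) := by
  have h := ((hF.2.1.const_mul a).add
    ((innerSL ℝ b).integrable_comp (integrable_smul_snd hF))).add
      ((integrable_mul_norm_sq hF).const_mul c)
  refine h.congr (Filter.Eventually.of_forall fun z => ?_)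
  simp; ring

lemma integral_mul_quadratic {F : Omega → ℝ} (hF : FiniteData F) (a c : ℝ) (b : V3) :
    ∫ z : Omega, F z * (a + ⟪b, z.2⟫ + c * ‖z.2‖ ^ 2) =
      a * (∫ z, F z) + ⟪b, ∫ z : Omega, F z • z.2⟫ + c * ∫ z : Omega, F z * ‖z.2‖ ^ 2 := by
  have h1 := hF.2.1.const_mul a
  have h2 := (innerSL ℝ b).integrable_comp (integrable_smul_snd hF)
  have h3 := (integrable_mul_norm_sq hF).const_mul c
  have hb : ∫ z : Omega, (innerSL ℝ b) (F z • z.2) = ⟪b, ∫ z : Omega, F z • z.2⟫ := by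
    rw [ContinuousLinearMap.integral_comp_comm _ (integrable_smul_snd hF)]; simp
  have h12 : Integrable (fun z : Omega => a * F z + (innerSL ℝ b) (F z • z.2)) := h1.add h2
  rw [← integral_const_mul, ← hb, ← integral_const_mul, ← integral_add h1 h2,
    ← integral_add h12 h3]
  refine integral_congr_ae (Filter.Eventually.of_forall fun z => ?_)
  simp; ring

lemma log_maxwellian_eq (hρ : 0 < ρ) (hθ : 0 < θ) (v : V3) :
    log (maxwellian ρ u θ v) =
      (log (ρ * (2 * π * θ) ^ (-(3 / 2 : ℝ))) - ‖u‖ ^ 2 / (2 * θ)) +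
        ⟪(1 / θ) • u, v⟫ + (-(1 / (2 * θ))) * ‖v‖ ^ 2 := by
  rw [log_maxwellian hρ hθ, norm_sub_sq_real, real_inner_smul_left, real_inner_comm v u]
  field_simp; ring

lemma integrable_kl {F : Omega → ℝ} (hF : FiniteData F) (hρ : 0 < ρ) (hθ : 0 < θ) :
    Integrable (fun z : Omega =>
      F z * log (F z / maxwellian ρ u θ z.2) - F z + maxwellian ρ u θ z.2) := by
  set a := log (ρ * (2 * π * θ) ^ (-(3 / 2 : ℝ))) - ‖u‖ ^ 2 / (2 * θ)
  have h := (((integrable_mul_log hF).sub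
    (integrable_mul_quadratic hF a (-(1 / (2 * θ))) ((1 / θ) • u))).sub hF.2.1).add
      (integrable_snd (integrable_maxwellian (ρ := ρ) (u := u) hθ))
  refine h.congr (Filter.Eventually.of_forall fun z => ?_)
  by_cases h0 : F z = 0
  · simp [h0]
  · simp only [Pi.add_apply, Pi.sub_apply]
    rw [log_div h0 (maxwellian_pos hρ hθ _).ne', log_maxwellian_eq hρ hθ]
    ring

/-- Change of the reference Maxwellian. -/
lemma relEnt_change {F : Omega → ℝ} (hF : FiniteData F) (hρ : 0 < ρ) (hθ : 0 < θ) :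
    relEnt (maxwellian ρ u θ) F = relEnt (maxwellian 1 0 1) F +
      ((log ((2 * π) ^ (-(3 / 2 : ℝ))) - log (ρ * (2 * π * θ) ^ (-(3 / 2 : ℝ)))
          + ‖u‖ ^ 2 / (2 * θ)) * (∫ z, F z)
        + ⟪(-(1 / θ)) • u, ∫ z : Omega, F z • z.2⟫
        + (1 / (2 * θ) - 1 / 2) * ∫ z : Omega, F z * ‖z.2‖ ^ 2)
      + ((∫ z : Omega, maxwellian ρ u θ z.2) - ∫ z : Omega, maxwellian 1 0 1 z.2) := by
  set a := log ((2 * π) ^ (-(3 / 2 : ℝ))) - log (ρ * (2 * π * θ) ^ (-(3 / 2 : ℝ)))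
    + ‖u‖ ^ 2 / (2 * θ) with ha
  set c := 1 / (2 * θ) - 1 / 2 with hc
  set b := (-(1 / θ)) • u with hb
  have hq := integrable_mul_quadratic hF a c b
  have hs := integrable_kl (ρ := 1) (u := 0) hF one_pos one_pos
  have hG := integrable_snd (integrable_maxwellian (ρ := ρ) (u := u) hθ)
  have hM := integrable_snd (integrable_maxwellian (ρ := 1) (u := 0) one_pos)
  have hsq : Integrable (fun z : Omega => F z * log (F z / maxwellian 1 0 1 z.2) - F z
      + maxwellian 1 0 1 z.2 + F z * (a + ⟪b, z.2⟫ + c * ‖z.2‖ ^ 2)) := hs.add hq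
  have hGM : Integrable (fun z : Omega => maxwellian ρ u θ z.2 - maxwellian 1 0 1 z.2) := hG.sub hM
  rw [← integral_mul_quadratic hF a c b, ← integral_sub hG hM, relEnt, relEnt,
    ← integral_add hs hq, ← integral_add hsq hGM]
  refine integral_congr_ae (Filter.Eventually.of_forall fun z => ?_)
  by_cases h0 : F z = 0
  · simp [h0]
  · simp only [ha, hb, hc]
    rw [log_div h0 (maxwellian_pos hρ hθ _).ne', log_div h0 (maxwellian_pos one_pos one_pos _).ne',
      log_maxwellian_eq hρ hθ, log_maxwellian_eq one_pos one_pos]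
    simp [real_inner_smul_left]; ring

lemma finiteData_maxwellian (hρ : 0 < ρ) (hθ : 0 < θ) :
    FiniteData (fun z : Omega => maxwellian ρ u θ z.2) := by
  set a := log (ρ * (2 * π * θ) ^ (-(3 / 2 : ℝ)))
  have hM := integrable_maxwellian (ρ := ρ) (u := u) hθ
  have hS := integrable_sq_mul_maxwellian (ρ := ρ) (u := u) hθ
  refine ⟨fun z => (maxwellian_pos hρ hθ _).le, integrable_snd hM, integrable_snd (g := fun v =>
    maxwellian ρ u θ v * (1 + ‖v‖ ^ 2 + |log (maxwellian ρ u θ v)|)) ?_⟩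
  refine ((hM.const_mul (1 + |a| + ‖u‖ ^ 2 / θ)).add (hS.const_mul (1 + 1 / θ))).mono'
    ((continuous_maxwellian.mul ((by fun_prop : Continuous fun v : V3 => 1 + ‖v‖ ^ 2).add
      ((continuous_maxwellian.log fun v => (maxwellian_pos hρ hθ v).ne').abs))).aestronglyMeasurable)
    (Filter.Eventually.of_forall fun v => ?_)
  have hp := (maxwellian_pos (u := u) hρ hθ v).le
  simp only [Pi.add_apply]
  rw [Real.norm_eq_abs, abs_of_nonneg (mul_nonneg hp (by positivity))]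
  have h1 : |log (maxwellian ρ u θ v)| ≤ |a| + ‖v - u‖ ^ 2 / (2 * θ) := by
    rw [log_maxwellian hρ hθ]
    refine (abs_sub _ _).trans ?_
    rw [abs_of_nonneg (by positivity : 0 ≤ ‖v - u‖ ^ 2 / (2 * θ))]
  have h2 : ‖v - u‖ ^ 2 / (2 * θ) ≤ ‖v‖ ^ 2 / θ + ‖u‖ ^ 2 / θ := by
    rw [← add_div, div_le_div_iff₀ (by positivity) hθ]
    have := norm_sub_le v u
    have : ‖v - u‖ ^ 2 ≤ 2 * (‖v‖ ^ 2 + ‖u‖ ^ 2) := by
      nlinarith [norm_nonneg (v - u), sq_nonneg (‖v‖ - ‖u‖)]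
    nlinarith
  calc maxwellian ρ u θ v * (1 + ‖v‖ ^ 2 + |log (maxwellian ρ u θ v)|)
      ≤ maxwellian ρ u θ v * (1 + ‖v‖ ^ 2 + (|a| + (‖v‖ ^ 2 / θ + ‖u‖ ^ 2 / θ))) := by
        gcongr; linarith
    _ = _ := by ring

/-- Relative entropy to any Maxwellian of temperature at most one does not increase. -/
theorem relEnt_le {F₀ F : Omega → ℝ} (h₀ : FiniteData F₀) (hF : FiniteData F)
    (hmass : ∫ z, F z = ∫ z, F₀ z)
    (hmom : ∫ z : Omega, F z • z.2 = ∫ z : Omega, F₀ z • z.2)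
    (hen : ∫ z : Omega, F z * ‖z.2‖ ^ 2 ≤ ∫ z : Omega, F₀ z * ‖z.2‖ ^ 2)
    (hent : relEnt (maxwellian 1 0 1) F ≤ relEnt (maxwellian 1 0 1) F₀)
    (hρ : 0 < ρ) (hθ : 0 < θ) (hθ1 : θ ≤ 1) :
    relEnt (maxwellian ρ u θ) F ≤ relEnt (maxwellian ρ u θ) F₀ := by
  rw [relEnt_change hF hρ hθ, relEnt_change h₀ hρ hθ, hmass, hmom]
  have hc : 0 ≤ 1 / (2 * θ) - 1 / 2 := by
    rw [sub_nonneg]; exact one_div_le_one_div_of_le (by positivity) (by linarith)
  have := mul_le_mul_of_nonneg_left hen hc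
  linarith

/-- A global Maxwellian of temperature at most one is the only competitor from itself. -/
theorem eq_maxwellian {F₀ F : Omega → ℝ} (hF : FiniteData F)
    (hmass : ∫ z, F z = ∫ z, F₀ z)
    (hmom : ∫ z : Omega, F z • z.2 = ∫ z : Omega, F₀ z • z.2)
    (hen : ∫ z : Omega, F z * ‖z.2‖ ^ 2 ≤ ∫ z : Omega, F₀ z * ‖z.2‖ ^ 2)
    (hent : relEnt (maxwellian 1 0 1) F ≤ relEnt (maxwellian 1 0 1) F₀)
    (h₀ : FiniteData F₀) (hρ : 0 < ρ) (hθ : 0 < θ) (hθ1 : θ ≤ 1)
    (heq : F₀ =ᵐ[volume] fun z => maxwellian ρ u θ z.2) :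
    F =ᵐ[volume] fun z => maxwellian ρ u θ z.2 := by
  have hzero : relEnt (maxwellian ρ u θ) F₀ = 0 := by
    refine integral_eq_zero_of_ae ?_
    filter_upwards [heq] with z hz
    simp [hz, (maxwellian_pos (u := u) hρ hθ z.2).ne']
  have hle := (relEnt_le (u := u) h₀ hF hmass hmom hen hent hρ hθ hθ1).trans_eq hzero
  have hnn : ∀ z : Omega,
      0 ≤ F z * log (F z / maxwellian ρ u θ z.2) - F z + maxwellian ρ u θ z.2 :=
    fun z => kl_nonneg (hF.1 z) (maxwellian_pos hρ hθ _)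
  have h0 : relEnt (maxwellian ρ u θ) F = 0 := le_antisymm hle (integral_nonneg hnn)
  have := (integral_eq_zero_iff_of_nonneg hnn (integrable_kl hF hρ hθ)).1 h0
  filter_upwards [this] with z hz
  exact kl_eq_zero (hF.1 z) (maxwellian_pos hρ hθ _) hz

end Vale.Agent.P140
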